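import Vale.Agent.P080.MathlibUsed

namespace Vale.Agent.P080

variable {E : Type*} [NormedAddCommGroup E] [InnerProductSpace ℝ E] [CompleteSpace E]

/-- The (unnormalized) infinity Laplacian of `φ` at `z`: the second derivative of `φ` at `z`,
applied twice to the gradient of `φ` at `z`. -/
noncomputable def infLaplacian (φ : E → ℝ) (z : E) : ℝ :=
  fderiv ℝ (fderiv ℝ φ) z (gradient φ z) (gradient φ z)

/-- `u` is infinity-harmonic on `Ω`: continuous on `Ω` and a viscosity solution of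
`infLaplacian u = 0` there, tested with all `C²` functions. -/
structure IsInfHarmonicOn (u : E → ℝ) (Ω : Set E) : Prop where
  continuousOn : ContinuousOn u Ω
  sub : ∀ z ∈ Ω, ∀ φ : E → ℝ, ContDiff ℝ 2 φ →
    IsLocalMax (fun x => u x - φ x) z → 0 ≤ infLaplacian φ z
  super : ∀ z ∈ Ω, ∀ φ : E → ℝ, ContDiff ℝ 2 φ →
    IsLocalMin (fun x => u x - φ x) z → infLaplacian φ z ≤ 0

/-- `x` is touched by a closed ball of radius `ρ` contained in `U`, on which `u ≤ u x` or
`u x ≤ u`. -/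
def TouchedBy {E : Type*} [NormedAddCommGroup E] (u : E → ℝ) (U : Set E) (ρ : ℝ) (x : E) : Prop :=
  ∃ z : E, ‖x - z‖ = ρ ∧ Metric.closedBall z ρ ⊆ U ∧
    ((∀ w ∈ Metric.closedBall z ρ, u w ≤ u x) ∨ (∀ w ∈ Metric.closedBall z ρ, u x ≤ u w))

end Vale.Agent.P080
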