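import Vale.Agent.P080.MathlibUsed

namespace Vale.Agent.P080

open scoped RealInnerProductSpace

/-- The set of all limits of gradients `∇u(x)` as `x → x₀` (cluster points of `∇u` at `x₀`). -/
def gradCluster {E : Type*} [NormedAddCommGroup E] [InnerProductSpace ℝ E] [CompleteSpace E]
    (u : E → ℝ) (x0 : E) : Set E :=
  {p | MapClusterPt p (nhds x0) (gradient u)}

variable {E : Type*} [NormedAddCommGroup E] [InnerProductSpace ℝ E]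

/-- The sphere with diameter `[0, e]`. -/
def thales (e : E) : Set E := {p | ‖p‖ ^ 2 = ⟪e, p⟫}

/-- `p` is an asymptotic slope of `u`: on some balls of arbitrarily large radius `u` is
arbitrarily close to an affine function with gradient `p`. -/
def IsSlope (u : E → ℝ) (p : E) : Prop :=
  ∀ R : ℝ, ∀ δ > 0, ∃ x₀ : E, ∀ h : E, ‖h‖ ≤ R → |u (x₀ + h) - u x₀ - ⟪p, h⟫| ≤ δ

/-- `u` is affine with gradient `q`. -/
def IsAffineWith (u : E → ℝ) (q : E) : Prop := ∀ x, u x = u 0 + ⟪q, x⟫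

/-- `u(x) = ⟪e, x⟫ + o(‖x‖)` as `‖x‖ → ∞`. -/
def TangentAtInf (u : E → ℝ) (e : E) : Prop :=
  ∀ ε > 0, ∃ R₀ : ℝ, ∀ x, R₀ ≤ ‖x‖ → |u x - ⟪e, x⟫| ≤ ε * ‖x‖

/-- `u(x + ζ) - u(x) = ⟪q, ζ⟫ + o(‖ζ‖)` as `‖ζ‖ → ∞`, uniformly in `x`. -/
def UnifTangentAtInf (u : E → ℝ) (q : E) : Prop :=
  ∀ ε > 0, ∃ R₀ : ℝ, ∀ x ζ, R₀ ≤ ‖ζ‖ → |u (x + ζ) - u x - ⟪q, ζ⟫| ≤ ε * ‖ζ‖

/-- `limsup (u(x) - ⟪q, x⟫) / √‖x‖ ≤ 0` as `‖x‖ → ∞`. -/
def BelowRoot (u : E → ℝ) (q : E) : Prop :=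
  ∀ ε > 0, ∃ R₀ : ℝ, ∀ x, R₀ ≤ ‖x‖ → u x ≤ ⟪q, x⟫ + ε * √‖x‖

/-- Along the ray from some point `a` in direction `-e`, `u` exceeds its slowest possible values
by at least `c √T`. -/
def RootExcess (u : E → ℝ) (e : E) : Prop :=
  ∃ (a : E) (c T₀ : ℝ), 0 < c ∧ ∀ T : ℝ, T₀ ≤ T →
    u a - T * ‖e‖ ^ 2 + c * √T ≤ u (a - T • e)

/-- The statement about the entire function `u` with tangent slope `e` at infinity. -/
def EntireLaw (u : E → ℝ) (e : E) : Prop :=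
  TangentAtInf u e ∧ IsSlope u e ∧
  (∀ ζ, ∃ p ∈ thales e, IsSlope u p ∧ ∀ x, u (x + ζ) - u x ≤ ⟪p, ζ⟫) ∧
  (IsAffineWith u e ∨ ((∃ p ∈ thales e, p ≠ e ∧ IsSlope u p) ∧ RootExcess u e ∧
    RootExcess (fun x => - u x) (-e)))

/-- The statement about the limits of the gradients of `u` at `x₀`. -/
def GradLimitLaw [CompleteSpace E] (u : E → ℝ) (x₀ : E) : Prop :=
  DifferentiableAt ℝ u x₀ ∧
  gradCluster u x₀ ⊆ closure (convexHull ℝ (gradCluster u x₀ ∩ thales (gradient u x₀))) ∧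
  (∀ c, ∀ p ∈ gradCluster u x₀, (∀ q ∈ gradCluster u x₀, ‖q - c‖ ≤ ‖p - c‖) →
    p ∈ thales (gradient u x₀)) ∧
  (¬ ContinuousAt (gradient u) x₀ → ∃ p ∈ gradCluster u x₀ ∩ thales (gradient u x₀),
    p ≠ gradient u x₀ ∧
    ∀ q ∈ gradCluster u x₀, ‖q - gradient u x₀‖ ≤ ‖p - gradient u x₀‖)

end Vale.Agent.P080
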