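import Vale.Agent.P080.Defs
import Vale.Agent.P080.LvDefs

namespace Vale.Agent.P080

open Metric
open scoped RealInnerProductSpace

variable {E : Type*} [NormedAddCommGroup E] [InnerProductSpace ℝ E] [CompleteSpace E]

/-- `u` is continuously differentiable on the ball `B(x₀, R/2)`, with `|∇u| ≤ C M / R` and
`|∇u(x) - ∇u(y)| ≤ (C M / R) (|x - y| / R)^α` there. -/
def HalfBallEstimate (α C : ℝ) (u : E → ℝ) (x₀ : E) (R M : ℝ) : Prop :=
  ContDiffOn ℝ 1 u (ball x₀ (R / 2)) ∧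
  (∀ x ∈ ball x₀ (R / 2), ‖gradient u x‖ ≤ C * (M / R)) ∧
  (∀ x ∈ ball x₀ (R / 2), ∀ y ∈ ball x₀ (R / 2),
    ‖gradient u x - gradient u y‖ ≤ C * (M / R) * (‖x - y‖ / R) ^ α)

/-- (A) The half-ball estimate for the quasiconcave or quasiconvex infinity-harmonic functions
on balls of `E`. -/
def QuasiconcaveEstimate (E : Type*) [NormedAddCommGroup E] [InnerProductSpace ℝ E]
    [CompleteSpace E] (α C : ℝ) : Prop :=
  ∀ (u : E → ℝ) (x₀ : E) (R M : ℝ), 0 < R → IsInfHarmonicOn u (ball x₀ R) →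
    (∀ x ∈ ball x₀ R, ∀ y ∈ ball x₀ R, u x - u y ≤ M) →
    (QuasiconcaveOn ℝ (ball x₀ R) u ∨ QuasiconvexOn ℝ (ball x₀ R) u) →
    HalfBallEstimate α C u x₀ R M

/-- (B) For the infinity-harmonic potentials of bounded convex rings `Ω \ K` in `E`: interior
`C^{1,α}` estimate and nonvanishing gradient. -/
def ConvexRingEstimate (E : Type*) [NormedAddCommGroup E] [InnerProductSpace ℝ E]
    [CompleteSpace E] (α C : ℝ) : Prop :=
  ∀ (Ω K : Set E) (u : E → ℝ), IsOpen Ω → Convex ℝ Ω → Bornology.IsBounded Ω →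
    Convex ℝ K → IsCompact K → K.Nonempty → K ⊆ Ω →
    Continuous u → (∀ x ∈ K, u x = 1) → (∀ x, x ∉ Ω → u x = 0) →
    IsInfHarmonicOn u (Ω \ K) →
    ContDiffOn ℝ 1 u (Ω \ K) ∧ (∀ x ∈ Ω \ K, gradient u x ≠ 0) ∧
    (∀ (x₀ : E) (R : ℝ), 0 < R → ball x₀ R ⊆ Ω \ K → HalfBallEstimate α C u x₀ R 1)

/-- (C) For every infinity-harmonic function on a ball of `E`: `C^{1,α}` expansions at the
points touched from one side by a ball of radius `ρ`, and Hölder continuity of the gradient on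
the set of these points. -/
def TouchedEstimate (E : Type*) [NormedAddCommGroup E] [InnerProductSpace ℝ E]
    [CompleteSpace E] (α C : ℝ) : Prop :=
  ∀ (u : E → ℝ) (x₀ : E) (R M : ℝ), 0 < R → IsInfHarmonicOn u (ball x₀ R) →
    (∀ x ∈ ball x₀ R, ∀ y ∈ ball x₀ R, u x - u y ≤ M) →
    ∀ ρ : ℝ, 0 < ρ → ρ ≤ R → ∀ x ∈ ball x₀ (R / 2), TouchedBy u (ball x₀ R) ρ x →
      DifferentiableAt ℝ u x ∧ ‖gradient u x‖ ≤ C * (M / R) ∧
      (∀ y ∈ ball x₀ (R / 2),
        |u y - u x - ⟪gradient u x, y - x⟫| ≤ C * (M / R) * ρ * (‖y - x‖ / ρ) ^ (1 + α)) ∧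
      (∀ y ∈ ball x₀ (R / 2), TouchedBy u (ball x₀ R) ρ y →
        ‖gradient u x - gradient u y‖ ≤ C * (M / R) * (‖x - y‖ / ρ) ^ α)

/-- (D) Abundance of touched points: the boundary of every closed ball of radius `ρ` inside a
ball `B(x₀, R)` on which `u` is infinity-harmonic contains a `ρ`-touched point. -/
def TouchedAbundance (E : Type*) [NormedAddCommGroup E] [InnerProductSpace ℝ E]
    [CompleteSpace E] : Prop :=
  ∀ (u : E → ℝ) (x₀ : E) (R : ℝ), 0 < R → IsInfHarmonicOn u (ball x₀ R) →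
    ∀ (z : E) (ρ : ℝ), 0 < ρ → closedBall z ρ ⊆ ball x₀ R →
      ∃ x, ‖x - z‖ = ρ ∧ TouchedBy u (ball x₀ R) ρ x

/-- (E) The law for the limits of the gradients, at every point of every open set on which `u` is
infinity-harmonic. -/
def GradientLimits (E : Type*) [NormedAddCommGroup E] [InnerProductSpace ℝ E]
    [CompleteSpace E] : Prop :=
  ∀ (Ω : Set E) (u : E → ℝ), IsOpen Ω → IsInfHarmonicOn u Ω → ∀ x₀ ∈ Ω, GradLimitLaw u x₀

/-- (F) Structure and Liouville theorems for the infinity-harmonic functions of linear growth on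
the whole space. -/
def EntireTheorem (E : Type*) [NormedAddCommGroup E] [InnerProductSpace ℝ E]
    [CompleteSpace E] : Prop :=
  ∀ (u : E → ℝ) (C : ℝ), IsInfHarmonicOn u Set.univ → (∀ x, |u x| ≤ C * (1 + ‖x‖)) →
    (∃ e, EntireLaw u e) ∧
    ∀ q, (UnifTangentAtInf u q ∨ BelowRoot u q ∨ BelowRoot (fun x => - u x) (-q)) →
      IsAffineWith u q

end Vale.Agent.P080
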