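import Mathlib.Algebra.Order.Archimedean.Real.Hom
import Mathlib.Algebra.Order.Quantale
import Mathlib.Algebra.Order.Ring.Star
import Mathlib.Algebra.Order.Star.Real
import Mathlib.Algebra.Ring.IsFormallyReal
import Mathlib.AlgebraicTopology.FundamentalGroupoid.SimplyConnected
import Mathlib.Analysis.Calculus.BumpFunction.InnerProduct
import Mathlib.Analysis.Calculus.Gradient.Basic
import Mathlib.Analysis.Complex.ExponentialBounds
import Mathlib.Analysis.Convex.Continuous
import Mathlib.Analysis.Convex.Contractible
import Mathlib.Analysis.Convex.Quasiconvex
import Mathlib.Analysis.Normed.Lp.MeasurableSpace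
import Mathlib.LinearAlgebra.Complex.FiniteDimensional
import Mathlib.MeasureTheory.Function.SpecialFunctions.Inner
import Mathlib.MeasureTheory.Integral.IntervalIntegral.FundThmCalculus
import Mathlib.MeasureTheory.Measure.Lebesgue.EqHaar
import Mathlib.Order.CompletePartialOrder
import Mathlib.RingTheory.Binomial
import Mathlib.RingTheory.DedekindDomain.SInteger
import Mathlib.RingTheory.Etale.Weakly
import Mathlib.RingTheory.Flat.TorsionFree
import Mathlib.RingTheory.TotallySplit
import Mathlib.Tactic
import Mathlib.Topology.Algebra.ProperAction.Basic
import Mathlib.Topology.Metrizable.ContinuousMap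
import Mathlib.Topology.Order.LowerUpperTopology
import Mathlib.Topology.UniformSpace.Ascoli

/-! The part of Mathlib that the development of this folder uses. -/
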